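import Mathlib

set_option autoImplicit false

/-!
Squarefree numbers `d ≡ 23 (mod 60)` with exactly `k` prime factors satisfying two conditions that
hold for primes and are inherited by `d * q` for suitable primes `q ≡ 1 (mod 60)`.
-/

namespace Vale.Agent.P017.H121

/-- a prime `q > N`, `q ≡ 1 (mod 60 e)`, with `l` not a square modulo `q` -/
lemma exists_step_prime {l e : ℕ} (hl : l.Prime) (hl2 : l ≠ 2) (he : e ≠ 0)
    (hle : Nat.Coprime l (60 * e)) (N : ℕ) :
    ∃ q : ℕ, N < q ∧ q.Prime ∧ q ≡ 1 [MOD 60 * e] ∧ ¬ IsSquare ((q : ℕ) : ZMod l) := by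
  have : Fact l.Prime := ⟨hl⟩
  obtain ⟨g, hg⟩ := FiniteField.exists_nonsquare (F := ZMod l)
    (by rw [ZMod.ringChar_zmod_n]; exact hl2)
  have hg0 : g ≠ 0 := by
    rintro rfl
    exact hg ⟨0, by simp⟩
  have hl0 : l ≠ 0 := hl.ne_zero
  obtain ⟨c, hc1, hc2⟩ := Nat.chineseRemainder hle g.val 1
  have hcl : c.Coprime l := by
    rw [Nat.coprime_comm, hl.coprime_iff_not_dvd]
    intro h
    apply hg0
    have h1 : (g.val : ZMod l) = (c : ZMod l) := ((ZMod.natCast_eq_natCast_iff _ _ _).2 hc1).symm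
    rw [ZMod.natCast_zmod_val] at h1
    rw [h1]
    exact (ZMod.natCast_eq_zero_iff _ _).2 h
  have hce : c.Coprime (60 * e) := by
    have h1 := hc2.gcd_eq
    rw [Nat.gcd_one_left] at h1
    exact h1
  have hcc : c.Coprime (l * (60 * e)) := Nat.Coprime.mul_right hcl hce
  have hne : l * (60 * e) ≠ 0 := by positivity
  obtain ⟨q, hqN, hqp, hq⟩ := Nat.forall_exists_prime_gt_and_modEq N hne hcc
  refine ⟨q, hqN, hqp, ?_, ?_⟩
  · exact (hq.of_mul_left l).trans hc2
  · have h1 : q ≡ g.val [MOD l] := (hq.of_mul_right (60 * e)).trans hc1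
    have h2 : (q : ZMod l) = (g.val : ZMod l) := (ZMod.natCast_eq_natCast_iff _ _ _).2 h1
    rw [h2, ZMod.natCast_zmod_val]
    exact hg

/-- the general induction -/
theorem many_gen (P : ℕ → Prop) (hprime : ∀ p : ℕ, p.Prime → P p)
    (hstep : ∀ d l q : ℕ, Squarefree d → l.Prime → l ∣ d → q.Prime → ¬ q ∣ d → q % 4 = 1 →
      (∀ p : ℕ, p.Prime → p ∣ d → p ≠ l → IsSquare ((q : ℤ) : ZMod p)) →
      (∀ p : ℕ, p.Prime → p ∣ d → p ≠ l → IsSquare ((p : ℤ) : ZMod q)) →
      ¬ IsSquare ((l : ℤ) : ZMod q) → P d → P (d * q)) (N : ℕ) :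
    ∀ k : ℕ, 1 ≤ k → ∃ d : ℕ, N < d ∧ Squarefree d ∧ d.primeFactors.card = k ∧ d % 60 = 23 ∧
      P d := by
  intro k hk
  induction k, hk using Nat.le_induction with
  | base =>
    obtain ⟨p, hpN, hp, hm⟩ := Nat.forall_exists_prime_gt_and_modEq N (q := 60) (a := 23)
      (by norm_num) (by norm_num)
    refine ⟨p, hpN, hp.squarefree, ?_, hm, hprime p hp⟩
    rw [hp.primeFactors, Finset.card_singleton]
  | succ k hk ih =>
    obtain ⟨d, hdN, hsf, hcard, hmod, hP⟩ := ih
    have hd0 : d ≠ 0 := hsf.ne_zero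
    have hd1 : d ≠ 1 := by
      rintro rfl
      norm_num at hmod
    obtain ⟨l, hl, hld⟩ := Nat.exists_prime_and_dvd hd1
    obtain ⟨e, he⟩ := hld
    have he0 : e ≠ 0 := by
      rintro rfl
      exact hd0 (by rw [he, mul_zero])
    have hd60 : Nat.Coprime d 60 := by
      have h1 : d ≡ 23 [MOD 60] := hmod
      have h2 := h1.gcd_eq
      exact h2.trans (by norm_num)
    have hl60 : Nat.Coprime l 60 := Nat.Coprime.coprime_dvd_left ⟨e, he⟩ hd60
    have hl2 : l ≠ 2 := by
      rintro rfl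
      revert hl60
      decide
    have hlecop : Nat.Coprime l e := by
      rw [he] at hsf
      exact Nat.coprime_of_squarefree_mul hsf
    have hle : Nat.Coprime l (60 * e) := Nat.Coprime.mul_right hl60 hlecop
    obtain ⟨q, hqd, hqp, hq1, hqn⟩ := exists_step_prime hl hl2 he0 hle d
    have : Fact q.Prime := ⟨hqp⟩
    have hqnd : ¬ q ∣ d := by
      intro h
      exact absurd (Nat.le_of_dvd (Nat.pos_of_ne_zero hd0) h) (not_le.2 hqd)
    have hq60 : q ≡ 1 [MOD 60] := hq1.of_mul_right e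
    have hq4 : q % 4 = 1 := (hq60.of_dvd (by norm_num) : q ≡ 1 [MOD 4])
    have hdq : Nat.Coprime d q := (hqp.coprime_iff_not_dvd.2 hqnd).symm
    have hodd : ∀ p : ℕ, p ∣ d → p ≠ 2 := by
      rintro p hpd rfl
      have := Nat.Coprime.coprime_dvd_left hpd hd60
      revert this
      decide
    have hsqp : ∀ p : ℕ, p.Prime → p ∣ d → p ≠ l → IsSquare ((q : ℕ) : ZMod p) := by
      intro p hp hpd hpl
      have hpe : p ∣ e := by
        rw [he] at hpd
        rcases hp.dvd_mul.1 hpd with h | h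
        · exact absurd ((Nat.prime_dvd_prime_iff_eq hp hl).1 h) hpl
        · exact h
      have h1 : q ≡ 1 [MOD p] := hq1.of_dvd (hpe.mul_left 60)
      have h2 : (q : ZMod p) = ((1 : ℕ) : ZMod p) := (ZMod.natCast_eq_natCast_iff _ _ _).2 h1
      rw [h2, Nat.cast_one]
      exact IsSquare.one
    refine ⟨d * q, ?_, ?_, ?_, ?_, ?_⟩
    · exact lt_of_lt_of_le hdN (Nat.le_mul_of_pos_right d hqp.pos)
    · exact (Nat.squarefree_mul hdq).2 ⟨hsf, hqp.squarefree⟩
    · rw [Nat.Coprime.primeFactors_mul hdq, Finset.card_union_of_disjoint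
        hdq.disjoint_primeFactors, hcard, hqp.primeFactors, Finset.card_singleton]
    · have h1 : d * q ≡ 23 * 1 [MOD 60] := Nat.ModEq.mul hmod hq60
      exact h1
    · refine hstep d l q hsf hl ⟨e, he⟩ hqp hqnd hq4 ?_ ?_ ?_ hP
      · intro p hp hpd hpl
        have := hsqp p hp hpd hpl
        simpa using this
      · intro p hp hpd hpl
        have : Fact p.Prime := ⟨hp⟩
        have h1 : IsSquare (p : ZMod q) :=
          (ZMod.exists_sq_eq_prime_iff_of_mod_four_eq_one hq4 (hodd p hpd)).2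
            (hsqp p hp hpd hpl)
        simpa using h1
      · intro h
        have : Fact l.Prime := ⟨hl⟩
        apply hqn
        have h1 : IsSquare (l : ZMod q) := by simpa using h
        exact (ZMod.exists_sq_eq_prime_iff_of_mod_four_eq_one hq4 hl2).1 h1

end Vale.Agent.P017.H121
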