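import Mathlib
import Vale.Agent.P017.H390.Comp
import Vale.Agent.P017.H121.ManyGen
import Vale.Agent.P017.H766.StepR1
import Vale.Agent.P017.H766.StepR2

set_option autoImplicit false

namespace Vale.Agent.P017.H121

open Vale.Agent.P017.H390

lemma R1_prime {p : ℕ} (hp : p.Prime) : R1 p := by
  intro m M h _ _
  rcases (Nat.prime_mul_iff.1 (h.symm ▸ hp)) with ⟨_, h1⟩ | ⟨_, h1⟩
  · exact Or.inr h1
  · exact Or.inl h1

lemma R2_prime {p : ℕ} (hp : p.Prime) : R2 p := by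
  intro a b h ha hb _ _
  have h1 : a.natAbs * b.natAbs = p := by
    rw [← Int.natAbs_mul, h, Int.natAbs_neg, Int.natAbs_natCast]
  rcases (Nat.prime_mul_iff.1 (h1.symm ▸ hp)) with ⟨_, h2⟩ | ⟨_, h2⟩
  · right
    omega
  · left
    omega

/-- **Many fields**: for every `k ≥ 1` there are arbitrarily large squarefree `d ≡ 23 (mod 60)`
with exactly `k` prime factors satisfying both Rédei conditions `R1` and `R2`. -/
theorem many (k : ℕ) (hk : 1 ≤ k) (N : ℕ) :
    ∃ d : ℕ, N < d ∧ Squarefree d ∧ d.primeFactors.card = k ∧ d % 60 = 23 ∧ R1 d ∧ R2 d := by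
  obtain ⟨d, h1, h2, h3, h4, h5, h6⟩ := many_gen (fun d => R1 d ∧ R2 d)
    (fun p hp => ⟨R1_prime hp, R2_prime hp⟩)
    (fun d l q hsf hl hld hq hqd hq4 a1 a2 a3 hP =>
      ⟨H766.R1_step hsf hl hld hq hqd a1 a2 a3 hP.1,
        H766.R2_step hsf hl hld hq hqd a1 a2 a3 hq4 hP.2⟩) N k hk
  exact ⟨d, h1, h2, h3, h4, h5, h6⟩

end Vale.Agent.P017.H121
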